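import Mathlib.RingTheory.AlgebraicIndependent.Adjoin
import Mathlib.FieldTheory.PrimitiveElement
import Mathlib.FieldTheory.Perfect
import Mathlib.RingTheory.Localization.Integral
import Mathlib.Analysis.Complex.Polynomial.Basic

/-!
# P270L, row MODEL: a function field is the function field of a hypersurface
-/

open Set Polynomial IsLocalization

noncomputable section

namespace Vale.Agent.P270L.Md

theorem bez {R F : Type} [CommRing R] [IsDomain R] [Field F] [Algebra R F] [IsFractionRing R F]
    {m : F[X]} (hm : m.Separable) : ∃ (f : R[X]) (b δ : R) (u v : R[X]), b ≠ 0 ∧ δ ≠ 0 ∧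
      f.map (algebraMap R F) = b • m ∧ u * f + v * derivative f = C δ := by
  obtain ⟨a, c, h⟩ := hm
  obtain ⟨b, b0, hb⟩ := integerNormalization_spec (nonZeroDivisors R) m
  obtain ⟨s, s0, hs⟩ := integerNormalization_spec (nonZeroDivisors R) a
  obtain ⟨t, t0, ht⟩ := integerNormalization_spec (nonZeroDivisors R) c
  refine ⟨_, b, s * t * b, C t * integerNormalization (nonZeroDivisors R) a,
    C s * integerNormalization (nonZeroDivisors R) c, nonZeroDivisors.ne_zero b0,
    nonZeroDivisors.ne_zero (mul_mem (mul_mem s0 t0) b0), hb,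
    map_injective _ (IsFractionRing.injective R F) ?_⟩
  simp only [Polynomial.map_add, Polynomial.map_mul, ← derivative_map, hb, hs, ht, map_C,
    Algebra.smul_def, Polynomial.algebraMap_apply, derivative_mul, derivative_C, map_mul]
  linear_combination C (algebraMap R F s) * C (algebraMap R F t) * C (algebraMap R F b) * h

variable {n : ℕ} {K : Type} [Field K] [Algebra ℂ K]

/-- the hypersurface -/
theorem alg {y : Fin n → K} (hy : AlgebraicIndependent ℂ y)
    [FiniteDimensional (IntermediateField.adjoin ℂ (range y)) K] :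
    ∃ (f : (MvPolynomial (Fin n) ℂ)[X]) (δ : MvPolynomial (Fin n) ℂ), δ ≠ 0 ∧
      (∀ a, MvPolynomial.eval a δ ≠ 0 → ∃ b, f.eval₂ (MvPolynomial.eval a) b = 0 ∧
        (derivative f).eval₂ (MvPolynomial.eval a) b ≠ 0) ∧
      ∀ (K' : Type) [Field K'] [Algebra ℂ K'] (y' : Fin n → K') (z' : K'),
        AlgebraicIndependent ℂ y' → f.eval₂ (MvPolynomial.aeval y').toRingHom z' = 0 →
        ∃ ψ : K →ₐ[ℂ] K', (∀ i, ψ (y i) = y' i) ∧ ∃ z, ψ z = z' := by
  have : CharZero K := charZero_of_injective_algebraMap (algebraMap ℂ K).injective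
  let pb := Field.powerBasisOfFiniteOfSeparable (IntermediateField.adjoin ℂ (range y)) K
  have sp : (minpoly (IntermediateField.adjoin ℂ (range y)) pb.gen).Separable :=
    Algebra.IsSeparable.isSeparable _ _
  obtain ⟨f, b, δ, u, v, b0, δ0, hf, h⟩ := bez (R := MvPolynomial (Fin n) ℂ)
    (sp.map (f := hy.reprField.toRingHom))
  have b1 := (map_ne_zero_iff _ (IsFractionRing.injective _
    (FractionRing (MvPolynomial (Fin n) ℂ)))).2 b0
  have dg : f.degree ≠ 0 := by
    rw [← degree_map_eq_of_injective (IsFractionRing.injective _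
      (FractionRing (MvPolynomial (Fin n) ℂ))), hf, Algebra.smul_def,
      Polynomial.algebraMap_apply, degree_C_mul b1, degree_map]
    exact (minpoly.degree_pos pb.isIntegral_gen).ne'
  have f0 : f ≠ 0 := fun e => δ0 (C_eq_zero.1 (by rw [← h, e]; simp))
  refine ⟨f, δ * f.leadingCoeff, mul_ne_zero δ0 (leadingCoeff_ne_zero.2 f0), fun a ha => ?_,
    fun K' _ _ y' z' hy' hz => ?_⟩
  · rw [map_mul] at ha
    obtain ⟨b, hb⟩ := IsAlgClosed.exists_root (f.map (MvPolynomial.eval a)) (by
      rwa [degree_map_eq_of_leadingCoeff_ne_zero _ (right_ne_zero_of_mul ha)])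
    rw [IsRoot, eval_map] at hb
    refine ⟨b, hb, fun k => left_ne_zero_of_mul ha ?_⟩
    simpa [eval₂_mul, hb, k] using (congrArg (eval₂ (MvPolynomial.eval a) b) h).symm
  · let l := IsFractionRing.liftAlgHom (K := FractionRing (MvPolynomial (Fin n) ℂ))
      (algebraicIndependent_iff_injective_aeval.2 hy')
    have hl : ∀ p : MvPolynomial (Fin n) ℂ, l (algebraMap _ _ p) = MvPolynomial.aeval y' p :=
      IsFractionRing.lift_algebraMap (algebraicIndependent_iff_injective_aeval.2 hy')
    let _ := (l.comp hy.reprField).toAlgebra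
    have : IsScalarTower ℂ (IntermediateField.adjoin ℂ (range y)) K' :=
      .of_algebraMap_eq fun c => ((l.comp hy.reprField).commutes c).symm
    have k : aeval z' (minpoly (IntermediateField.adjoin ℂ (range y)) pb.gen) = 0 := by
      have q := congrArg (eval₂ l.toRingHom z') hf
      rw [eval₂_map, show l.toRingHom.comp (algebraMap _ _) = (MvPolynomial.aeval y').toRingHom from
        RingHom.ext hl, hz, Algebra.smul_def, Polynomial.algebraMap_apply, eval₂_mul, eval₂_C,
        eval₂_map] at q
      exact (mul_eq_zero.1 q.symm).resolve_left ((_root_.map_ne_zero _).2 b1)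
    refine ⟨(pb.lift z' k).restrictScalars ℂ, fun i => ?_, pb.gen, pb.lift_gen z' k⟩
    have e : hy.aevalEquivField (algebraMap _ _ (MvPolynomial.X i : MvPolynomial (Fin n) ℂ)) =
        ⟨y i, IntermediateField.subset_adjoin _ _ ⟨i, rfl⟩⟩ :=
      Subtype.ext ((hy.aevalEquivField_algebraMap_apply_coe _).trans (MvPolynomial.aeval_X _ _))
    refine ((pb.lift z' k).commutes ⟨y i, IntermediateField.subset_adjoin _ _ ⟨i, rfl⟩⟩).trans ?_
    change l (hy.aevalEquivField.symm _) = _
    rw [← e, AlgEquiv.symm_apply_apply, hl, MvPolynomial.aeval_X]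

end Vale.Agent.P270L.Md
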