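import Vale.Agent.P281Z.Rs.All
import Vale.Agent.P281Z.Pb.Api
import Vale.Agent.P281Z.Mf.Sub
import Vale.Agent.P281Z.Lf.Rech

/-!
# P270L, row MODEL: a resolution of a projective hypersurface
-/

open scoped Topology Polynomial
open Set Filter MvPolynomial
open Vale.Agent.P272.K (Cm Chart At)
open Vale.Agent.P277Z (Hol hol_const)
open Vale.Agent.P277Z.Slc (Ind dd)
open Vale.Agent.P281Z

noncomputable section

namespace Vale.Agent.P270L.Md

section aff

variable {r : ℕ} (S : PS r) {p : S.P.X} {h : S.H.ι}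

/-- homogeneous coordinates -/
def hc (p : S.P.X) : Cm (r + 1) := S.x (S.lb.cover p).choose p

/-- affine coordinates -/
def af (p : S.P.X) : Fin r → ℂ := fun i => hc S p i.succ / hc S p 0

/-- the hyperplane at infinity and a hypersurface -/
def Zs (F : MvPolynomial (Fin r) ℂ) : Set S.P.X := {p | hc S p 0 = 0 ∨ eval (af S p) F = 0}

variable {S}

theorem hc_eq (hp : p ∈ S.H.U h) : ∃ c : ℂ, c ≠ 0 ∧ hc S p = c • S.x h p :=
  ⟨_, S.lb.ne_zero _ _ p (S.lb.cover p).choose_spec hp, S.x_chg (S.lb.cover p).choose_spec hp⟩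

theorem hc_div (hp : p ∈ S.H.U h) (a b) : hc S p a / hc S p b = S.x h p a / S.x h p b :=
  let ⟨_, h1, h2⟩ := hc_eq hp
  h2 ▸ smul_ratio h1 _ a b

theorem hc_zero (hp : p ∈ S.H.U h) (a) : hc S p a = 0 ↔ S.x h p a = 0 := by
  obtain ⟨_, h1, h2⟩ := hc_eq hp
  rw [h2, Pi.smul_apply, smul_eq_mul, mul_eq_zero_iff_left h1]

theorem hc_hol {b} (hb : hc S p b ≠ 0) (a) : Hol r (fun q => hc S q a / hc S q b) p :=
  have hp := (S.lb.cover p).choose_spec
  ((S.xhol hp a).div (S.xhol hp b) hb).congr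
    (((S.lb.isOpen _).eventually_mem hp).mono fun _ hq => (hc_div hq a b).symm)

theorem hc_near {b} (hb : hc S p b ≠ 0) : ∀ᶠ q in 𝓝 p, hc S q b ≠ 0 := by
  have hp := (S.lb.cover p).choose_spec
  filter_upwards [(S.xhol hp b).ne_near hb, (S.lb.isOpen _).eventually_mem hp] with q k1 k2
    using mt (hc_zero k2 b).1 k1

theorem hc_mer {m : ℕ} {W : Mf m} {π : W.X → S.P.X} (hπ : HolM m r π) (a b) (x : W.X) :
    P277Z.Mer m (fun y => hc S (π y) a / hc S (π y) b) x := by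
  have hp := (S.lb.cover (π x)).choose_spec
  refine P277Z.Lo.mer_congr (P277Z.Lo.mer_div (P277Z.Lo.mer_of_hol (hπ.hol (S.xhol hp a)))
    (P277Z.Lo.mer_of_hol (hπ.hol (S.xhol hp b)))) (P277Z.gen_of_nhds ?_)
  exact (hπ.cont.continuousAt.eventually ((S.lb.isOpen _).eventually_mem hp)).mono
    fun _ hq => (hc_div hq a b).symm

theorem pt_af {a : Fin r → ℂ} :
    hc S (S.pt (Fin.cons 1 a)) 0 ≠ 0 ∧ af S (S.pt (Fin.cons 1 a)) = a := by
  have h0 : (Fin.cons 1 a : Cm (r + 1)) ≠ 0 := Function.ne_iff.2 ⟨0, one_ne_zero⟩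
  obtain ⟨h, hp⟩ := S.lb.cover (S.pt (Fin.cons 1 a))
  refine ⟨mt (hc_zero hp 0).1 ((S.x_ne_iff h0 hp 0).2 one_ne_zero), funext fun i => ?_⟩
  rw [af, hc_div hp, S.ratio h0 hp, Fin.cons_zero, Fin.cons_succ, div_one]

theorem af_pt (h0 : hc S p 0 ≠ 0) : S.pt (Fin.cons 1 (af S p)) = p := by
  refine Eq.trans (congrArg _ ?_) (S.pt_x _ p (hc S p 0)⁻¹ (S.lb.cover p).choose_spec
    (inv_ne_zero h0))
  funext i
  induction i using Fin.cases with
  | zero => exact (inv_mul_cancel₀ h0).symm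
  | succ i => exact div_eq_inv_mul _ _

theorem ext (hp : p ∈ S.H.U h) (F : MvPolynomial (Fin r) ℂ) : ∃ (D : ℕ) (g : S.P.X → ℂ),
    Hol r g p ∧ ∀ q ∈ S.H.U h, S.x h q 0 ≠ 0 → g q = S.x h q 0 ^ D * eval (af S q) F := by
  induction F using MvPolynomial.induction_on with
  | C c => exact ⟨0, fun _ => c, hol_const _ _, fun q _ _ => by simp⟩
  | add F G h1 h2 =>
    obtain ⟨D, g, a1, a2⟩ := h1
    obtain ⟨D', g', b1, b2⟩ := h2
    refine ⟨D + D', _, (((S.xhol hp 0).pow D').mul a1).add (((S.xhol hp 0).pow D).mul b1),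
      fun q k1 k2 => ?_⟩
    simp only [a2 q k1 k2, b2 q k1 k2, map_add]
    ring
  | mul_X F i h1 =>
    obtain ⟨D, g, a1, a2⟩ := h1
    refine ⟨D + 1, _, a1.mul (S.xhol hp i.succ), fun q k1 k2 => ?_⟩
    simp only [a2 q k1 k2, map_mul, eval_X, af, hc_div k1]
    rw [pow_succ, mul_mul_mul_comm, mul_div_cancel₀ _ k2]

theorem an_Zs (F : MvPolynomial (Fin r) ℂ) : An r (Zs S F) := fun p => by
  obtain ⟨h, hp⟩ := S.lb.cover p
  obtain ⟨D, g, h1, h2⟩ := ext hp F
  refine ⟨1, fun _ q => S.x h q 0 * g q, fun _ => (S.xhol hp 0).mul h1,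
    ((S.lb.isOpen h).eventually_mem hp).mono fun q hq => ?_⟩
  by_cases k : S.x h q 0 = 0
  · simp [Zs, hc_zero hq, k]
  · simp [Zs, hc_zero hq, k, h2 q hq k]

theorem ev_hol (h0 : hc S p 0 ≠ 0) (F : MvPolynomial (Fin r) ℂ) :
    Hol r (fun q => eval (af S q) F) p := by
  induction F using MvPolynomial.induction_on with
  | C c => simpa using hol_const _ _
  | add F G h1 h2 => simpa using h1.add h2
  | mul_X F i h1 => simpa [af] using h1.mul (hc_hol h0 i.succ)

end aff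

variable {n : ℕ}

/-- a polynomial in `n + 1` variables -/
def hm (f : (MvPolynomial (Fin n) ℂ)[X]) : MvPolynomial (Fin (n + 1)) ℂ :=
  f.eval₂ (rename Fin.succ).toRingHom (X 0)

theorem aeval_hm {B : Type} [CommRing B] [Algebra ℂ B] (f : (MvPolynomial (Fin n) ℂ)[X])
    (w : Fin (n + 1) → B) : aeval w (hm f) = f.eval₂ (aeval (Fin.tail w)).toRingHom (w 0) := by
  refine (Polynomial.hom_eval₂ f _ (aeval w).toRingHom _).trans ?_
  congr 1
  · exact RingHom.ext fun p => aeval_rename _ _ p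
  · exact aeval_X _ _

theorem eval_hm (f : (MvPolynomial (Fin n) ℂ)[X]) (w : Fin (n + 1) → ℂ) :
    eval w (hm f) = f.eval₂ (eval (Fin.tail w)) (w 0) := aeval_hm f w

variable (S : PS (n + 1)) (f : (MvPolynomial (Fin n) ℂ)[X])

theorem subM : SubM (n + 1) n (Zs S (hm f) \ Zs S (hm f.derivative)) := fun p hp => by
  obtain ⟨h0, h1⟩ := not_or.1 hp.2
  refine ⟨1, fun _ q => eval (af S q) (hm f), rfl, ⟨fun _ => ev_hol h0 _, fun e he =>
    linearIndependent_unique_iff.2 fun k => h1 ?_⟩, ?_⟩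
  · let w : ℂ → Cm (n + 1 + 1) := fun t => Fin.cons 1 (Fin.cons t (Fin.tail (af S p)))
    have w0 : S.pt (w (af S p 0)) = p := by
      simp only [w, Fin.cons_self_tail]
      exact af_pt h0
    have w1 : w (af S p 0) ≠ 0 := Function.ne_iff.2 ⟨0, one_ne_zero⟩
    have w2 : DifferentiableAt ℂ w (af S p 0) := differentiableAt_pi.2 fun i => by
      induction i using Fin.cases with
      | zero => exact differentiableAt_const _
      | succ i =>
        induction i using Fin.cases with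
        | zero => exact differentiableAt_id
        | succ i => exact differentiableAt_const _
    have a1 := ((S.an _ w1 e (w0.symm ▸ he)).differentiableAt.comp _ w2).hasDerivAt
    have a2 := (ev_hol h0 (hm f) e he).differentiableAt.hasFDerivAt
    rw [show fderiv ℂ _ _ = 0 from k, ← show e (S.pt (w (af S p 0))) = e p from congrArg e w0] at a2
    have a3 := a2.comp_hasDerivAt _ a1
    have a4 := (f.map (eval (Fin.tail (af S p)))).hasDerivAt (af S p 0)
    rw [eval_hm, ← Polynomial.eval_map, ← Polynomial.derivative_map]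
    refine a4.unique (a3.congr_of_eventuallyEq ?_)
    filter_upwards [((S.cont _ w1).comp w2.continuousAt).eventually
      (e.open_source.mem_nhds (w0.symm ▸ he.2 :))] with t ht
    change _ = eval (af S (e.symm (e (S.pt (w t))))) _
    rw [e.left_inv (x := S.pt (w t)) ht, pt_af.2, eval_hm, Polynomial.eval_map]
    rfl
  · filter_upwards [(an_Zs _).closed.isOpen_compl.mem_nhds hp.2, hc_near h0] with q k1 k2
    exact ((and_iff_left k1).trans (or_iff_right k2)).trans (forall_const _).symm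

variable {f}

/-- a component of the resolution which dominates the affine space -/
theorem hyp {δ : MvPolynomial (Fin n) ℂ} (δ0 : δ ≠ 0) (h : ∀ a, eval a δ ≠ 0 →
    ∃ b, f.eval₂ (eval a) b = 0 ∧ f.derivative.eval₂ (eval a) b ≠ 0) :
    ∃ (W : Mf n) (π : W.X → S.P.X), ConnectedSpace W.X ∧ W.Prj ∧ HolM n (n + 1) π ∧
      (∀ x, π x ∈ Zs S (hm f)) ∧ (∀ x p, π p ∉ Zs S (hm f.derivative) → π x = π p → x = p) ∧
      ∀ P, P ≠ 0 → ∃ x, π x ∉ Zs S (hm f.derivative) ∧ eval (Fin.tail (af S (π x))) P ≠ 0 := by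
  obtain ⟨I, hI⟩ := idl _ S.P _ (an_Zs (S := S) (hm f.derivative))
  obtain ⟨R⟩ := Rs.res _ n S.P _ I (an_Zs (hm f)) (hI ▸ subM S f)
  obtain ⟨J, _, V, i, h1, h2, -, h3, -⟩ := comps R.V
  have o := R.ovr
  rw [hI] at o
  have : ∃ j, ∀ P, P ≠ 0 → ∃ x, R.π (i j x) ∉ Zs S (hm f.derivative) ∧
      eval (Fin.tail (af S (R.π (i j x)))) P ≠ 0 := by
    by_contra k
    push Not at k
    choose P P0 hP using k
    obtain ⟨a, ha⟩ := not_forall.1 (mt (MvPolynomial.funext (q := 0))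
      (mul_ne_zero δ0 (Finset.prod_ne_zero_iff.2 fun j (_ : j ∈ Finset.univ) => P0 j)))
    rw [map_zero, map_mul, map_prod] at ha
    obtain ⟨b, b1, b2⟩ := h a (left_ne_zero_of_mul ha)
    have c : S.pt (Fin.cons 1 (Fin.cons b a)) ∉ Zs S (hm f.derivative) :=
      not_or.2 ⟨pt_af.1, by rwa [pt_af.2, eval_hm]⟩
    obtain ⟨x, hx, -⟩ := o.one _ (Or.inr (by rwa [pt_af.2, eval_hm])) c
    obtain ⟨j, x, rfl⟩ := h3 x
    have := hP j x (hx ▸ c)
    rw [hx, pt_af.2] at this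
    exact Finset.prod_ne_zero_iff.1 (right_ne_zero_of_mul ha) j (Finset.mem_univ _) this
  obtain ⟨j, hj⟩ := this
  obtain ⟨L, l1, l2⟩ := R.prj S.prj
  exact ⟨V j, fun x => R.π (i j x), h1 j,
    ⟨_, (h2 j).hol.lb l1, Lf.pos_pull (h2 j).hol (h2 j).imm l2⟩, o.hol.comp (h2 j).hol,
    fun x => o.maps _,
    fun x p k e => (h2 j).inj ((o.one _ (o.maps _) k).unique e rfl), hj⟩

end Vale.Agent.P270L.Md
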