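import Vale.Agent.P270L.Md.Ctr
import Vale.Agent.P270L.Md.Alg
import Vale.Agent.P270L.Md.Hyp
import Vale.Agent.P281Z.Pb.Ps

/-!
# P270L, row MODEL: every function field over `ℂ` has a smooth projective model
-/

open scoped Topology
open Set Filter MvPolynomial
open Vale.Agent.P277Z Vale.Agent.P281Z Vale.Agent.P285N

noncomputable section

namespace Vale.Agent.P270L.Md

variable {n : ℕ} {K : Type} [Field K] [Algebra ℂ K]

theorem val_aeval {N : ℕ} (M : Mdl n N K) {x : M.F} {σ : Type} {w : σ → K}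
    (hw : ∀ i, w i ∈ M.O x) (P : MvPolynomial σ ℂ) :
    aeval w P ∈ M.O x ∧ M.val (aeval w P) x = eval (fun i => M.val (w i) x) P := by
  induction P using MvPolynomial.induction_on with
  | C c => simpa using M.val_const c x
  | add P Q h1 h2 =>
    rw [map_add, map_add, M.val_add_at h1.1 h2.1, h1.2, h2.2]
    exact ⟨add_mem h1.1 h2.1, rfl⟩
  | mul_X P i h1 =>
    rw [map_mul, map_mul, aeval_X, eval_X, M.val_mul_at h1.1 (hw i), h1.2]
    exact ⟨mul_mem h1.1 (hw i), rfl⟩

theorem alg_mono {s t : Set K} (h : s ⊆ t)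
    (k : FiniteDimensional (IntermediateField.adjoin ℂ s) K) :
    Algebra.IsAlgebraic (IntermediateField.adjoin ℂ t) K := ⟨fun a =>
  IntermediateField.isAlgebraic_adjoin_iff.2 ((IntermediateField.isAlgebraic_adjoin_iff.1
    (Algebra.IsAlgebraic.isAlgebraic a)).tower_top_of_subalgebra_le (Algebra.adjoin_mono h))⟩

/-- transport along an isomorphism -/
def tr {N : ℕ} {K' : Type} [Field K'] [Algebra ℂ K'] (M : Mdl n N K') (e : K ≃ₐ[ℂ] K') :
    Mdl n N K where
  toGeo := M.toGeo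
  val f := M.val (e f)
  val_add f g := by simpa only [map_add] using M.val_add (e f) (e g)
  val_mul f g := by simpa only [map_mul] using M.val_mul (e f) (e g)
  val_const c y := by rw [e.commutes, M.val_const]
  mer f := M.mer (e f)
  can f := M.can (e f)
  surj a ha := let ⟨f, hf⟩ := M.surj a ha; ⟨e.symm f, by rwa [e.apply_symm_apply]⟩

/-- **MODEL** -/
theorem iso {y : Fin n → K} (hy : AlgebraicIndependent ℂ y)
    [FiniteDimensional (IntermediateField.adjoin ℂ (range y)) K] :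
    ∃ (W : Mf n) (_ : ConnectedSpace W.X), W.Prj ∧ Nonempty (K ≃ₐ[ℂ] KF W) := by
  obtain ⟨f, δ, δ0, h1, h2⟩ := alg hy
  obtain ⟨S⟩ := Pb.psex (n + 1)
  obtain ⟨W, π, _, hW, a1, a2, a3, a4⟩ := hyp S δ0 h1
  refine ⟨W, inferInstance, hW, ?_⟩
  let M := mdl (P285N.alg hW)
  have hM : M.Proj := geo_proj hW
  have g : ∀ᶠ x in gen M.F, π x ∉ Zs S (hm f.derivative) := Lo.gen_iff.2 fun x _ =>
    (Thin.pre_of_ex (an_Zs _) a1 ((a4 1 one_ne_zero).imp fun _ k => k.1)).gen x
  choose u hu using fun i => M.surj _ fun x _ => hc_mer a1 i 0 x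
  have b0 : ∀ i j (x : M.F), hc S (π x) j ≠ 0 → u j ≠ 0 ∧ u i / u j ∈ M.O x ∧
      M.val (u i / u j) x = hc S (π x) i / hc S (π x) j := fun i j x hx => by
    have c : ∀ᶠ z in gen {(x : M.W)}, M.val (u j) z ≠ 0 ∧
        M.val (u i / u j) z = hc S (π z) i / hc S (π z) j := by
      filter_upwards [M.at_pt g x, M.at_pt (hu i) x, M.at_pt (hu j) x,
        M.at_pt (M.val_div (u i) (u j)) x,
        gen_of_nhds (a1.cont.continuousAt.eventually (hc_near hx))] with z k1 k2 k3 k4 k5
      have k0 := (not_or.1 k1).1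
      rw [k4, k2, k3, div_div_div_cancel_right₀ k0]
      exact ⟨div_ne_zero k5 k0, rfl⟩
    have c' := a1.hol (hc_hol hx i)
    exact ⟨fun e => c.exists.elim fun z k => k.1 (by rw [e, M.val_zero]),
      M.mem_O_of c' (c.mono fun _ k => k.2), M.val_eq_at c' (c.mono fun _ k => k.2)⟩
  let x₀ : M.F := ⟨Classical.arbitrary W.X, trivial⟩
  have u0 : u 0 = 1 := M.eq_of_val x₀ (by
    filter_upwards [M.at_pt g x₀, M.at_pt (hu 0) x₀] with z k1 k2
    rw [k2, div_self (not_or.1 k1).1, M.val_one])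
  have b1 : ∀ (x : M.F) (P : MvPolynomial (Fin (n + 1)) ℂ), hc S (π x) 0 ≠ 0 →
      M.val (aeval (Fin.tail u) P) x = eval (af S (π x)) P := fun x P hx => by
    have c := fun i => (b0 i 0 x hx).2
    simp only [u0, div_one] at c
    rw [(val_aeval M (w := Fin.tail u) (fun i => (c _).1) P).2]
    exact congrArg (eval · P) (funext fun i => (c _).2)
  have b2 : AlgebraicIndependent ℂ (Fin.tail (Fin.tail u)) :=
    algebraicIndependent_iff.2 fun P hP => by
      by_contra P0
      obtain ⟨x, k1, k2⟩ := a4 P P0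
      have := b1 ⟨x, trivial⟩ (rename Fin.succ P) (not_or.1 k1).1
      rw [aeval_rename, eval_rename] at this
      exact k2 (this.symm.trans ((congrArg (M.val · x) hP).trans (M.val_zero x)))
  obtain ⟨ψ, c1, z, c2⟩ := h2 _ _ (Fin.tail u 0) b2 ((aeval_hm f _).symm.trans (M.eq_of_val x₀ (by
    filter_upwards [M.at_pt g x₀] with x k
    rw [b1 ⟨x, trivial⟩ _ (not_or.1 k).1, M.val_zero]
    exact (a2 x).resolve_left (not_or.1 k).1)))
  choose J hJ using fun x : M.F => Function.ne_iff.1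
    (S.xnz _ _ (S.lb.cover (π x)).choose_spec)
  have := alg_mono (range_comp_subset_range (fun i : Fin n => i.succ.succ) u)
    (Ct.finite Ct.tools hM b2)
  have top := sep hM u J (fun x => ⟨(b0 0 _ x (hJ x)).1, fun i => (b0 i _ x (hJ x)).2.1⟩) (by
    filter_upwards [g, eventually_all.2 hu] with p k1 k2 x k3
    refine a3 x p k1 (S.ext (S.lb.cover _).choose_spec (S.lb.cover _).choose_spec
      ((prop_iff (S.xnz _ _ (S.lb.cover _).choose_spec)).2 fun a b => ?_))
    have k0 := (not_or.1 k1).1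
    have d := fun i => (b0 i _ x (hJ x)).2.2
    have e1 := k3 a
    have e2 := k3 b
    rw [d, k2, k2] at e1 e2
    change hc S (π x) a * hc S (π p) b = hc S (π x) b * hc S (π p) a
    rw [← mul_div_assoc, div_left_inj' k0] at e1 e2
    rw [← e1, ← e2]
    ring)
  refine ⟨AlgEquiv.ofBijective ψ ⟨ψ.injective, fun a => ?_⟩⟩
  refine (IntermediateField.adjoin_le_iff (T := ψ.fieldRange)).2 ?_ (top.ge trivial)
  rintro _ ⟨i, rfl⟩
  induction i using Fin.cases with
  | zero => exact ⟨1, (map_one ψ).trans u0.symm⟩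
  | succ i =>
    induction i using Fin.cases with
    | zero => exact ⟨z, c2⟩
    | succ i => exact ⟨y i, c1 i⟩

/-- **MODEL**, with the values -/
theorem model {y : Fin n → K} {δ : Fin n → Derivation ℂ K K} (h : Brep.Fr y δ) :
    ∃ (W : Mf n) (_ : ConnectedSpace W.X) (M : Mdl n 0 K), W.Prj ∧ M.toGeo = geo W :=
  have := h.fin
  let ⟨W, c, hW, ⟨e⟩⟩ := iso (Ct.ai_of_dual h.dual)
  ⟨W, c, tr (mdl (P285N.alg hW)) e, hW, rfl⟩

end Vale.Agent.P270L.Md
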